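import Vale.Agent.P096.CS.StrongDefs
import Vale.Agent.P096.Bd8.B20
import Vale.Agent.P096.Bd8.B19

universe u

namespace Vale.Agent.Results.P096.StrongKadisonKastler

open Vale.Agent.P096.Strong (kkDist ConjWithin)

/-- **The strong Kadison-Kastler conjecture.** For every `ε > 0` there is `δ > 0` such that for
every Hilbert space `H` and all von Neumann algebras `M`, `N` on `H` with `d(M, N) < δ` there is a
unitary `u` on `H` with `u M u* = N` and `‖u - 1‖ < ε`. -/
theorem result : ∀ ε : ℝ, 0 < ε → ∃ δ : ℝ, 0 < δ ∧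
    ∀ (H : Type u) [NormedAddCommGroup H] [InnerProductSpace ℂ H] [CompleteSpace H]
      (M N : VonNeumannAlgebra H), kkDist M N < δ → ConjWithin M N ε := by
  obtain ⟨C, d, hC, hd, h⟩ := Vale.Agent.P096.CS.finTr.{u}
  exact Vale.Agent.P096.CS.full_of_T3 fun ε hε => Vale.Agent.P096.III.linCS hC hd h hε

end Vale.Agent.Results.P096.StrongKadisonKastler
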